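import Vale.Agent.Lib.P015.Cluster

/-!
Exponential decay of component sizes in the graph `G_D` of Gaussian primes.
-/

namespace Vale.Agent.Results.P015.B_clusters

open Vale.Agent.Lib.P015

/-- For every `D > 0`:
(1) there are `C, k₀` such that for `k ≥ k₀` and `R ≥ k ^ (C * k)`, the Gaussian primes `z` with
`|z| ≤ R` whose component in `G_D` has at least `k` vertices number at most `R ^ 2 * exp (-k)`;
(2) there are `c > 0, R₀` such that for `R ≥ R₀` the Gaussian primes `z` with `|z| ≤ R` lying in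
infinite components of `G_D` number at most `R ^ 2 * exp (-c * log R / log log R)`. -/
theorem result (D : ℝ) (hD : 0 < D) :
    (∃ C k₀ : ℕ, ∀ k, k₀ ≤ k → ∀ R : ℝ, (k : ℝ) ^ (C * k) ≤ R → ∀ F : Finset GaussianInt,
      (∀ z ∈ F, Irreducible z ∧ gdist z 0 ≤ R ∧
        ∃ T : Finset GaussianInt, T.card = k ∧ ∀ w ∈ T, (primeGraph D).Reachable z w) →
      (F.card : ℝ) ≤ R ^ 2 * Real.exp (-(k : ℝ))) ∧
    (∃ c : ℝ, 0 < c ∧ ∃ R₀ : ℝ, ∀ R, R₀ ≤ R → ∀ F : Finset GaussianInt,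
      (∀ z ∈ F, Irreducible z ∧ gdist z 0 ≤ R ∧ {w | (primeGraph D).Reachable z w}.Infinite) →
      (F.card : ℝ) ≤ R ^ 2 * Real.exp (-(c * psi R))) :=
  cluster_main D hD

end Vale.Agent.Results.P015.B_clusters
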