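import Vale.Agent.Results.P015.A_width
import Vale.Agent.Results.P015.B_clusters

/-!
Gaussian moats: width of prime paths and exponential decay of component sizes, together.
-/

namespace Vale.Agent.Results.P015.A0_master

open Vale.Agent.Lib.P015

/-- For every `D > 0`, for the graph `G_D` of Gaussian primes with edges of length at most `D`:
(A) there is `c > 0` such that
(A1) a simple path of Gaussian primes with steps at most `D`, having two vertices at large distance
`L`, has width at least `exp (c * log L / log log L)` in every direction `(α, β)`;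
(A2) an infinite such path leaves, infinitely often, every tube
`|α x + β y - c₀| ≤ exp (c * psi (|z| + 16))` around every line of the plane;
(B1) there are `C, k₀` such that for `k ≥ k₀` and `R ≥ k ^ (C * k)`, the Gaussian primes `z` with
`|z| ≤ R` whose component in `G_D` has at least `k` vertices number at most `R ^ 2 * exp (-k)`;
(B2) there are `c > 0, R₀` such that for `R ≥ R₀` the Gaussian primes `z` with `|z| ≤ R` lying in
infinite components of `G_D` number at most `R ^ 2 * exp (-c * log R / log log R)`. -/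
theorem result (D : ℝ) (hD : 0 < D) :
    (∃ c : ℝ, 0 < c ∧
      (∃ L₀ : ℝ, ∀ (n : ℕ) (γ : ℕ → GaussianInt), IsPrimePath D n γ →
        ∀ α β : ℝ, α ^ 2 + β ^ 2 = 1 → ∀ i < n, ∀ j < n, L₀ ≤ gdist (γ i) (γ j) →
        ∃ a < n, ∃ b < n, Real.exp (c * psi (gdist (γ i) (γ j)))
          ≤ |α * (((γ a).re : ℝ) - ((γ b).re : ℝ)) + β * (((γ a).im : ℝ) - ((γ b).im : ℝ))|) ∧
      (∀ γ : ℕ → GaussianInt, (∀ n, Irreducible (γ n)) → Function.Injective γ →
        (∀ n, gdist (γ n) (γ (n + 1)) ≤ D) → ∀ α β c₀ : ℝ, α ^ 2 + β ^ 2 = 1 →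
        ∀ N, ∃ n, N ≤ n ∧ Real.exp (c * psi (gdist (γ n) 0 + 16))
          < |α * ((γ n).re : ℝ) + β * ((γ n).im : ℝ) - c₀|)) ∧
    (∃ C k₀ : ℕ, ∀ k, k₀ ≤ k → ∀ R : ℝ, (k : ℝ) ^ (C * k) ≤ R → ∀ F : Finset GaussianInt,
      (∀ z ∈ F, Irreducible z ∧ gdist z 0 ≤ R ∧
        ∃ T : Finset GaussianInt, T.card = k ∧ ∀ w ∈ T, (primeGraph D).Reachable z w) →
      (F.card : ℝ) ≤ R ^ 2 * Real.exp (-(k : ℝ))) ∧
    (∃ c : ℝ, 0 < c ∧ ∃ R₀ : ℝ, ∀ R, R₀ ≤ R → ∀ F : Finset GaussianInt,
      (∀ z ∈ F, Irreducible z ∧ gdist z 0 ≤ R ∧ {w | (primeGraph D).Reachable z w}.Infinite) →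
      (F.card : ℝ) ≤ R ^ 2 * Real.exp (-(c * psi R))) :=
  ⟨Vale.Agent.Results.P015.A_width.result D hD,
    (Vale.Agent.Results.P015.B_clusters.result D hD).1,
    (Vale.Agent.Results.P015.B_clusters.result D hD).2⟩

end Vale.Agent.Results.P015.A0_master
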