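import Vale.Agent.Lib.P015.Tube

/-!
Width of paths of Gaussian primes with bounded steps.
-/

namespace Vale.Agent.Results.P015.A_width

open Vale.Agent.Lib.P015

/-- For every `D > 0` there is `c > 0` such that:
(1) a simple path of Gaussian primes with steps at most `D`, having two vertices at large distance
`L`, has width at least `exp (c * log L / log log L)` in every direction `(α, β)`;
(2) an infinite such path leaves, infinitely often, every tube
`|α x + β y - c₀| ≤ exp (c * psi (|z| + 16))` around every line of the plane. -/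
theorem result (D : ℝ) (hD : 0 < D) : ∃ c : ℝ, 0 < c ∧
    (∃ L₀ : ℝ, ∀ (n : ℕ) (γ : ℕ → GaussianInt), IsPrimePath D n γ →
      ∀ α β : ℝ, α ^ 2 + β ^ 2 = 1 → ∀ i < n, ∀ j < n, L₀ ≤ gdist (γ i) (γ j) →
      ∃ a < n, ∃ b < n, Real.exp (c * psi (gdist (γ i) (γ j)))
        ≤ |α * (((γ a).re : ℝ) - ((γ b).re : ℝ)) + β * (((γ a).im : ℝ) - ((γ b).im : ℝ))|) ∧
    (∀ γ : ℕ → GaussianInt, (∀ n, Irreducible (γ n)) → Function.Injective γ →
      (∀ n, gdist (γ n) (γ (n + 1)) ≤ D) → ∀ α β c₀ : ℝ, α ^ 2 + β ^ 2 = 1 →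
      ∀ N, ∃ n, N ≤ n ∧ Real.exp (c * psi (gdist (γ n) 0 + 16))
        < |α * ((γ n).re : ℝ) + β * ((γ n).im : ℝ) - c₀|) :=
  main_result D hD

end Vale.Agent.Results.P015.A_width
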